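import Vale.Agent.P275DL.Defs

/-! Block DL (4): local and global branches of the roots. -/

open scoped Topology ContDiff
open Set Filter Metric Polynomial

namespace Vale.Agent.P275LL

open Vale.Agent.P275DL

section
variable {E : Type} [NormedAddCommGroup E] [NormedSpace ℂ E] {P : E → ℂ[X]} {e₀ : E} {n : ℕ}

/-- analytic families of polynomials of bounded degree -/
def Fam (P : E → ℂ[X]) (e₀ : E) (n : ℕ) : Prop :=
  (∀ k, AnalyticAt ℂ (fun e => (P e).coeff k) e₀) ∧ ∀ᶠ e in 𝓝 e₀, (P e).natDegree ≤ n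

theorem Fam.der (h : Fam P e₀ n) : Fam (fun e => derivative (P e)) e₀ n :=
  ⟨fun k => by simp only [coeff_derivative]; exact (h.1 (k + 1)).mul analyticAt_const,
    h.2.mono fun e he => (natDegree_derivative_le _).trans (by omega)⟩

theorem Fam.iter (h : Fam P e₀ n) (m : ℕ) : Fam (fun e => derivative^[m] (P e)) e₀ n := by
  induction m with
  | zero => exact h
  | succ m ih => simpa only [Function.iterate_succ_apply'] using ih.der

theorem Fam.an (h : Fam P e₀ n) (z : ℂ) :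
    AnalyticAt ℂ (fun x : E × ℂ => (P x.1).eval x.2) (e₀, z) := by
  have h1 : AnalyticAt ℂ
      (fun x : E × ℂ => ∑ k ∈ Finset.range (n + 1), (P x.1).coeff k * x.2 ^ k) (e₀, z) :=
    Finset.analyticAt_fun_sum _ fun k _ =>
      (AnalyticAt.comp (f := Prod.fst) (x := (e₀, z)) (h.1 k) analyticAt_fst).mul
        (analyticAt_snd.pow k)
  refine h1.congr ?_
  filter_upwards [(continuous_fst.tendsto (e₀, z)).eventually h.2] with x hx
  exact (eval_eq_sum_range' (Nat.lt_succ_of_le hx) _).symm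

/-- simple roots -/
theorem Fam.ift [CompleteSpace E] (h : Fam P e₀ n) {r : ℂ} (h0 : (P e₀).eval r = 0)
    (h1 : (derivative (P e₀)).eval r ≠ 0) : ∃ y : E → ℂ, AnalyticAt ℂ y e₀ ∧ y e₀ = r ∧
      ∀ᶠ x : E × ℂ in 𝓝 (e₀, r), (P x.1).eval x.2 = 0 ↔ y x.1 = x.2 := by
  have hc : ContDiffAt ℂ ω (fun x : E × ℂ => (P x.1).eval x.2) (e₀, r) := (h.an r).contDiffAt
  have hi : (fderiv ℂ (fun x : E × ℂ => (P x.1).eval x.2) (e₀, r) ∘L .inr ℂ E ℂ).IsInvertible :=
    ⟨_, (((P e₀).hasDerivAt r).hasFDerivAt_equiv h1).unique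
      ((h.an r).differentiableAt.hasFDerivAt.comp r (hasFDerivAt_prodMk_right e₀ r))⟩
  exact ⟨_, (hc.contDiffAt_implicitFunction (by simp) hi).analyticAt,
    hc.implicitFunction_apply_self (by simp) hi,
    by simpa only [h0] using hc.eventually_apply_eq_iff_implicitFunction (by simp) hi⟩

/-- continuity of the roots -/
theorem Fam.near (h : Fam P e₀ n) (hm : ∀ᶠ e in 𝓝 e₀, (P e).Monic) {r : ℂ}
    (h0 : (P e₀).eval r = 0) {q : E × ℂ → Prop} (hq : ∀ᶠ x in 𝓝 (e₀, r), q x) :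
    ∀ᶠ e in 𝓝 e₀, ∃ z, (P e).IsRoot z ∧ q (e, z) := by
  rw [nhds_prod_eq, eventually_prod_iff] at hq
  obtain ⟨a, ha, b, hb, hq⟩ := hq
  obtain ⟨ε, hε, hb⟩ := Metric.eventually_nhds_iff.1 hb
  have h1 : Tendsto (fun e => ‖(P e).eval r‖) (𝓝 e₀) (𝓝 0) := by
    have := ((h.an r).continuousAt.comp (f := fun e => (e, r)) (by fun_prop)).norm.tendsto
    simpa [h0, Function.comp_def] using this
  have hδ : 0 < min ε 1 := lt_min hε one_pos
  filter_upwards [ha, hm, h.2, h1.eventually (gt_mem_nhds (pow_pos hδ n))] with e he h2 h3 h4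
  by_contra hn
  refine h4.not_ge ?_
  have h5 : ∀ z ∈ (P e).roots, min ε 1 ≤ ‖r - z‖ := fun z hz => by
    by_contra h6
    exact hn ⟨z, isRoot_of_mem_roots hz, hq he (hb (by
      rw [dist_eq_norm, norm_sub_rev]
      exact (not_le.1 h6).trans_le (min_le_left _ _)))⟩
  rw [(IsAlgClosed.splits (P e)).eval_eq_prod_roots_of_monic h2]
  refine (pow_le_pow_of_le_one hδ.le (min_le_right _ _) ((card_roots' _).trans h3)).trans ?_
  generalize (P e).roots = s at h5
  induction s using Multiset.induction_on with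
  | empty => simp
  | cons z s ih =>
    simp only [Multiset.card_cons, Multiset.map_cons, Multiset.prod_cons, norm_mul, pow_succ']
    exact mul_le_mul (h5 z (Multiset.mem_cons_self _ _))
      (ih fun w hw => h5 w (Multiset.mem_cons_of_mem hw)) (pow_nonneg hδ.le _) (norm_nonneg _)

end

theorem sum_mult (p : ℂ[X]) : ∑ r ∈ p.roots.toFinset, p.rootMultiplicity r = p.natDegree := by
  simp only [← count_roots, Multiset.toFinset_sum_count_eq, IsAlgClosed.card_roots_eq_natDegree]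

theorem prod_mult {p : ℂ[X]} (h : p.Monic) :
    p = ∏ r ∈ p.roots.toFinset, (X - C r) ^ p.rootMultiplicity r := by
  rw [← prod_multiset_root_eq_finset_root]
  exact (prod_multiset_X_sub_C_of_monic_of_roots_card_eq h IsAlgClosed.card_roots_eq_natDegree).symm

theorem loc : LOC := by
  intro E _ _ _ P e₀ n ha he
  have hF : Fam P e₀ n := ⟨ha, he.mono fun e h => h.2.1.le⟩
  have h0 := he.self_of_nhds
  obtain ⟨W, hW, hd⟩ := (P e₀).roots.toFinset.finite_toSet.t2_separation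
  have key : ∀ r, ∃ y : E → ℂ, (AnalyticAt ℂ y e₀ ∧ y e₀ = r) ∧ (r ∈ (P e₀).roots.toFinset →
      ∀ᶠ e in 𝓝 e₀, ∃ z, (P e).IsRoot z ∧ z ∈ W r ∧
        (P e).rootMultiplicity z ≤ (P e₀).rootMultiplicity r ∧
        ((P e₀).rootMultiplicity r ≤ (P e).rootMultiplicity z → y e = z)) := by
    intro r
    by_cases hr : r ∈ (P e₀).roots.toFinset
    swap
    · exact ⟨fun _ => r, ⟨analyticAt_const, rfl⟩, fun h => (hr h).elim⟩
    have hr' := isRoot_of_mem_roots (Multiset.mem_toFinset.1 hr)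
    obtain ⟨m, hm⟩ : ∃ m, (P e₀).rootMultiplicity r = m + 1 :=
      Nat.exists_eq_succ_of_ne_zero ((rootMultiplicity_pos h0.1.ne_zero).2 hr').ne'
    have h1 : (derivative^[m + 1] (P e₀)).eval r ≠ 0 := by
      rw [← hm, eval_iterate_derivative_rootMultiplicity, nsmul_eq_mul]
      exact mul_ne_zero (Nat.cast_ne_zero.2 (Nat.factorial_ne_zero _))
        (eval_divByMonic_pow_rootMultiplicity_ne_zero r h0.1.ne_zero)
    obtain ⟨y, h2, h3, h4⟩ := (hF.iter m).ift (r := r)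
      (isRoot_iterate_derivative_of_lt_rootMultiplicity (by omega))
      (by rwa [Function.iterate_succ_apply'] at h1)
    refine ⟨y, ⟨h2, h3⟩, fun _ => hF.near (he.mono fun e h => h.1) hr' (q := fun x => x.2 ∈ W r ∧
      (P x.1).rootMultiplicity x.2 ≤ (P e₀).rootMultiplicity r ∧
        ((P e₀).rootMultiplicity r ≤ (P x.1).rootMultiplicity x.2 → y x.1 = x.2)) ?_⟩
    filter_upwards [h4, ((hF.iter (m + 1)).an r).continuousAt.eventually_ne h1,
      (continuous_snd.tendsto (e₀, r)).eventually ((hW r).2.mem_nhds (hW r).1)] with x a b c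
    exact ⟨c, not_lt.1 fun d => b (isRoot_iterate_derivative_of_lt_rootMultiplicity (hm ▸ d)),
      fun d => a.1 (isRoot_iterate_derivative_of_lt_rootMultiplicity (by omega))⟩
  choose y hy hy' using key
  refine ⟨y, hy, ?_⟩
  filter_upwards [he, (eventually_all_finset _).2 hy'] with e h1 h2
  choose! z z1 z2 z3 z4 using h2
  have hi : InjOn z (P e₀).roots.toFinset := fun r hr s hs h =>
    hd.elim_set hr hs (z r) (z2 r hr) (h ▸ z2 s hs)
  have hz : (P e₀).roots.toFinset.image z = (P e).roots.toFinset := by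
    refine Finset.eq_of_subset_of_card_le (fun w hw => ?_)
      (by rw [Finset.card_image_of_injOn hi]; exact h1.2.2)
    obtain ⟨r, hr, rfl⟩ := Finset.mem_image.1 hw
    exact Multiset.mem_toFinset.2 ((mem_roots h1.1.ne_zero).2 (z1 r hr))
  have hs := (Finset.sum_eq_sum_iff_of_le z3).1 (by
    rw [sum_mult, h0.2.1, ← h1.2.1, ← sum_mult (P e), ← hz, Finset.sum_image hi])
  refine (prod_mult h1.1).trans ?_
  rw [← hz, Finset.prod_image hi]
  exact Finset.prod_congr rfl fun r hr => by rw [z4 r hr (hs r hr).ge, hs r hr]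

section
variable {B : Type} [TopologicalSpace B] {R : B → Finset ℂ} {b : B} {y : ℂ → B → ℂ}

/-- near `b` the finite set `R` is given by the continuous branches `y` -/
def Bra (R : B → Finset ℂ) (b : B) (y : ℂ → B → ℂ) : Prop :=
  (∀ r, ContinuousAt (y r) b ∧ y r b = r) ∧ ∀ᶠ c in 𝓝 b, ∀ z, z ∈ R c ↔ ∃ r ∈ R b, y r c = z

theorem Bra.tend (h : Bra R b y) (r : ℂ) : Tendsto (fun c => (c, y r c)) (𝓝 b) (𝓝 (b, r)) := by
  have := (continuousAt_id.prodMk (h.1 r).1).tendsto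
  rwa [(h.1 r).2] at this

theorem Bra.sep (h : Bra R b y) {r : ℂ} (hr : r ∈ R b) :
    ∀ᶠ x : B × ℂ in 𝓝 (b, r), x.2 ∈ R x.1 → x.2 = y r x.1 := by
  obtain ⟨W, hW, hd⟩ := (R b).finite_toSet.t2_separation
  have h1 : ∀ᶠ c in 𝓝 b, ∀ s ∈ R b, y s c ∈ W s := (eventually_all_finset _).2 fun s _ =>
    (h.1 s).1.eventually ((hW s).2.mem_nhds (by rw [(h.1 s).2]; exact (hW s).1))
  filter_upwards [(continuous_fst.tendsto (b, r)).eventually (h.2.and h1),
    (continuous_snd.tendsto (b, r)).eventually ((hW r).2.mem_nhds (hW r).1)] with x h2 h3 h4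
  obtain ⟨s, hs, e⟩ := (h2.1 _).1 h4
  rw [hd.elim_set hr hs x.2 h3 (e ▸ h2.2 s hs), e]

theorem Bra.eq (h : Bra R b y) {s : B → ℂ} (hs : ContinuousAt s b) (hR : ∀ᶠ c in 𝓝 b, s c ∈ R c) :
    s =ᶠ[𝓝 b] y (s b) := by
  filter_upwards [(continuousAt_id.prodMk hs).tendsto.eventually (h.sep hR.self_of_nhds), hR]
    with c h1 h2 using h1 h2

/-- a finite cover of a simply connected space has a section through every point -/
theorem sect [T2Space B] [SimplyConnectedSpace B] [LocallyPathConnectedSpace B]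
    (h : ∀ b, ∃ y, Bra R b y) {r : ℂ} (hr : r ∈ R b) : ∃ s : B → ℂ, Continuous s ∧ s b = r ∧ ∀ c, s c ∈ R c := by
  choose y hy using h
  let p : {x : B × ℂ // x.2 ∈ R x.1} → B := fun x => x.1.1
  have hc : Continuous p := continuous_fst.comp continuous_subtype_val
  have ho : IsOpenMap p := isOpenMap_iff_nhds_le.2 fun x S hS => by
    obtain ⟨T, hT, h1⟩ := (mem_nhds_subtype _ _ _).1 (mem_map.1 hS)
    filter_upwards [((hy x.1.1).tend x.1.2).eventually hT, (hy x.1.1).2] with c h2 h3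
    exact @h1 ⟨(c, y _ x.1.2 c), (h3 _).2 ⟨_, x.2, rfl⟩⟩ h2
  have hl : IsLocalHomeomorph p := isLocalHomeomorph_iff_isOpenEmbedding_restrict.2 fun x => by
    obtain ⟨U, h1, h2, h3⟩ := _root_.eventually_nhds_iff.1
      ((continuous_subtype_val.tendsto x).eventually ((hy x.1.1).sep x.2))
    refine ⟨U, h2.mem_nhds h3, .of_continuous_injective_isOpenMap
      (hc.comp continuous_subtype_val) (fun u v e => ?_) (ho.comp h2.isOpenMap_subtype_val)⟩
    refine Subtype.ext (Subtype.ext (Prod.ext e ?_))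
    rw [h1 _ u.2 u.1.2, h1 _ v.2 v.1.2]
    exact congrArg _ e
  have hk : IsClosedMap p := isClosedMap_iff_comap_nhds_le.2 fun {c} S hS => by
    have h1 : ∀ s ∈ R c, ∀ᶠ d in 𝓝 c, ∀ hd, (⟨(d, y c s d), hd⟩ : {x : B × ℂ // _}) ∈ S := by
      intro s hs
      obtain ⟨T, hT, h1⟩ := (mem_nhds_subtype _ _ _).1 (mem_nhdsSet_iff_forall.1 hS ⟨(c, s), hs⟩ rfl)
      filter_upwards [((hy c).tend s).eventually hT] with d h2 hd using @h1 ⟨_, hd⟩ h2
    refine mem_comap.2 ⟨_, ((eventually_all_finset _).2 h1).and (hy c).2, ?_⟩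
    rintro ⟨⟨d, z⟩, hz⟩ ⟨h2, h3⟩
    obtain ⟨s, hs, rfl : y c s d = z⟩ := (h3 z).1 hz
    exact h2 s hs hz
  have hv : IsCoveringMap p := isCoveringMap_iff_isCoveringMapOn_univ.2
    (hk.isCoveringMapOn_of_isLocalHomeomorphOn (fun c _ => .of_finite_image (f := fun x => x.1.2)
      ((R c).finite_toSet.subset (by rintro _ ⟨⟨⟨d, z⟩, hz⟩, rfl, rfl⟩; exact hz))
      fun u hu v hv e => Subtype.ext (Prod.ext (hu.trans hv.symm) e)) hl.isLocalHomeomorphOn)
  obtain ⟨F, ⟨h1, h2⟩, -⟩ := hv.existsUnique_continuousMap_lifts (.id B) b ⟨(b, r), hr⟩ rfl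
  refine ⟨fun c => (F c).1.2, by fun_prop, congrArg (·.1.2) h1, fun c => ?_⟩
  have := (F c).2
  rwa [show (F c).1.1 = c from congrFun h2 c] at this

end

theorem bra_of {E : Type} [TopologicalSpace E] {P : E → ℂ[X]} {e₀ : E} {y : ℂ → E → ℂ}
    (h1 : ∀ r, ContinuousAt (y r) e₀ ∧ y r e₀ = r) (h2 : ∀ᶠ e in 𝓝 e₀,
      P e = ∏ r ∈ (P e₀).roots.toFinset, (X - C (y r e)) ^ (P e₀).rootMultiplicity r) :
    Bra (fun e => (P e).roots.toFinset) e₀ y := ⟨h1, h2.mono fun e he z => by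
  have h0 : P e ≠ 0 := by
    rw [he]
    exact Finset.prod_ne_zero_iff.2 fun r _ => pow_ne_zero _ (X_sub_C_ne_zero _)
  rw [Multiset.mem_toFinset, mem_roots h0, IsRoot, he, eval_prod, Finset.prod_eq_zero_iff]
  refine exists_congr fun r => and_congr_right fun hr => ?_
  have := Multiset.count_ne_zero.2 (Multiset.mem_toFinset.1 hr)
  rw [count_roots] at this
  rw [eval_pow, pow_eq_zero_iff this, eval_sub, eval_X, eval_C, sub_eq_zero, eq_comm]⟩

theorem lift : LIFT := by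
  intro P ρ n N r h hr
  by_cases hρ : 0 < ρ
  swap
  · simp only [ball_eq_empty.2 (not_lt.1 hρ)]
    exact ⟨fun _ => r, differentiableOn_const _, rfl, fun _ h => h.elim⟩
  have key := fun τ hτ => loc ℂ P τ n (h τ hτ).1 (by
    filter_upwards [isOpen_ball.mem_nhds hτ] with e he
    exact ⟨(h e he).2.1, (h e he).2.2.1, ((h e he).2.2.2.trans (h τ hτ).2.2.2.symm).le⟩)
  choose! y y1 y2 using key
  have hb := fun τ hτ => bra_of (fun r => ⟨(y1 τ hτ r).1.continuousAt, (y1 τ hτ r).2⟩) (y2 τ hτ)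
  have := (convex_ball (0 : ℂ) ρ).contractibleSpace ⟨0, mem_ball_self hρ⟩
  have := (isOpen_ball (x := (0 : ℂ)) (ε := ρ)).locallyPathConnectedSpace
  obtain ⟨s, s1, s2, s3⟩ := sect (B := ball (0 : ℂ) ρ) (R := fun τ => (P τ).roots.toFinset)
    (b := ⟨0, mem_ball_self hρ⟩) (fun τ => ⟨fun r c => y τ r c, fun r =>
      ⟨((hb τ τ.2).1 r).1.comp continuous_subtype_val.continuousAt, ((hb τ τ.2).1 r).2⟩,
      (continuous_subtype_val.tendsto τ).eventually (hb τ τ.2).2⟩)
    (Multiset.mem_toFinset.2 ((mem_roots (h 0 (mem_ball_self hρ)).2.1.ne_zero).2 hr))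
  classical
  have e : ∀ τ : ball (0 : ℂ) ρ, Function.extend Subtype.val s 0 (τ : ℂ) = s τ :=
    Subtype.val_injective.extend_apply _ _
  have e1 : ∀ τ ∈ ball (0 : ℂ) ρ, Function.extend Subtype.val s 0 τ ∈ (P τ).roots.toFinset :=
    fun τ hτ => e ⟨τ, hτ⟩ ▸ s3 ⟨τ, hτ⟩
  have e2 : ContinuousOn (Function.extend Subtype.val s 0) (ball (0 : ℂ) ρ) :=
    continuousOn_iff_continuous_domRestrict.2 (s1.congr fun τ => (e τ).symm)
  refine ⟨Function.extend Subtype.val s 0, fun τ hτ => ?_, (e ⟨0, mem_ball_self hρ⟩).trans s2,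
    fun τ hτ => isRoot_of_mem_roots (Multiset.mem_toFinset.1 (e1 τ hτ))⟩
  have h1 := isOpen_ball.mem_nhds hτ
  exact ((y1 τ hτ _).1.differentiableAt.congr_of_eventuallyEq
    ((hb τ hτ).eq (e2.continuousAt h1) (mem_of_superset h1 e1))).differentiableWithinAt

end Vale.Agent.P275LL
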